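import Vale.Agent.P237.All.Finite.W.Sound
import Vale.Agent.P237.All.Finite.W.Data.C20F

/-! P237, finitely many dimensions: the kernel runs the test of the cell 20F cut in `s`, three pieces at a time. -/


namespace Vale.Agent.P237.All.Finite.W.Data

def cell20F_head : wHeadTest cell20F = true := by decide +kernel

def cell20F_part0 : wChunkTest cell20F 0 = true := by decide +kernel

def cell20F_part1 : wChunkTest cell20F 1 = true := by decide +kernel

def cell20F_part2 : wChunkTest cell20F 2 = true := by decide +kernel

def cell20F_part3 : wChunkTest cell20F 3 = true := by decide +kernel

def cell20F_part4 : wChunkTest cell20F 4 = true := by decide +kernel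

def cell20F_part5 : wChunkTest cell20F 5 = true := by decide +kernel

def cell20F_part6 : wChunkTest cell20F 6 = true := by decide +kernel

/-- The bound on the range of the cell. -/
theorem cell20F_ok : RangeOk 19 (11/2) (17) :=
  rangeOk_wcell 7 (by decide) cell20F_head (fun i hi => by
    interval_cases i
    · exact cell20F_part0
    · exact cell20F_part1
    · exact cell20F_part2
    · exact cell20F_part3
    · exact cell20F_part4
    · exact cell20F_part5
    · exact cell20F_part6)
    (by decide) (by decide +kernel) (by decide +kernel) (by norm_num)

end Vale.Agent.P237.All.Finite.W.Data
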